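import Mathlib

/-!
Definitions for the dimension-free logarithmic Sobolev inequality for unconditional
log-concave measures with subgaussian marginals.
-/

open MeasureTheory Real Set
open scoped ENNReal

namespace Vale.Agent.P245

variable {ι : Type} [Fintype ι] [DecidableEq ι]

/-- Coordinate derivative. -/
noncomputable def pd (f : (ι → ℝ) → ℝ) (i : ι) (x : ι → ℝ) : ℝ := fderiv ℝ f x (Pi.single i 1)

/-- Compactly supported `C¹` functions. -/
def C1c (f : (ι → ℝ) → ℝ) : Prop := ContDiff ℝ 1 f ∧ HasCompactSupport f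

/-- Entropy functional. -/
noncomputable def Ent {α : Type} [MeasurableSpace α] (μ : Measure α) (w : α → ℝ) : ℝ :=
  ∫ x, w x * log (w x) ∂μ - (∫ x, w x ∂μ) * log (∫ x, w x ∂μ)

/-- Dirichlet energy. -/
noncomputable def En (μ : Measure (ι → ℝ)) (f : (ι → ℝ) → ℝ) : ℝ := ∑ i, ∫ x, pd f i x ^ 2 ∂μ

/-- One-dimensional confining penalty. -/
noncomputable def U1 (S t : ℝ) : ℝ := (max (|t| - S) 0) ^ 2 / 2

/-- Confining penalty, zero on the cube of half-side `S`. -/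
noncomputable def U (S : ℝ) (x : ι → ℝ) : ℝ := ∑ i, U1 S (x i)

/-- Functions of the absolute values of the coordinates. -/
def Unc (V : (ι → ℝ) → ℝ) : Prop := ∀ x y : ι → ℝ, (∀ i, |x i| = |y i|) → V x = V y

/-- Sign change. -/
def flip (ε : ι → Bool) (x : ι → ℝ) : ι → ℝ := fun i => if ε i then x i else -x i

/-- Change of one sign in a sign pattern. -/
def tog (i : ι) (ε : ι → Bool) : ι → Bool := Function.update ε i (!ε i)

/-- Measure with a density. -/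
noncomputable def mu (ρ : (ι → ℝ) → ℝ) : Measure (ι → ℝ) :=
  volume.withDensity (fun x => ENNReal.ofReal (ρ x))

/-- Measure with density `exp (-V)`. -/
noncomputable def dens (V : (ι → ℝ) → ℝ) : Measure (ι → ℝ) := mu (fun x => exp (-V x))

/-- The open positive orthant. -/
def orth (ι : Type) : Set (ι → ℝ) := {x | ∀ i, 0 < x i}

/-- An unconditional measure conditioned on the positive orthant. -/
noncomputable def plus (μ : Measure (ι → ℝ)) : Measure (ι → ℝ) :=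
  ((2 : ℝ≥0∞) ^ Fintype.card ι) • μ.restrict (orth ι)

/-- The closed cube. -/
def cube (ι : Type) (S : ℝ) : Set (ι → ℝ) := {x | ∀ i, |x i| ≤ S}

/-- Probabilistic facts shared by the measure and its orthant version. -/
structure Base (μ : Measure (ι → ℝ)) (S : ℝ) : Prop where
  prob : IsProbabilityMeasure μ
  one_le : 1 ≤ S
  sq : ∀ i, Integrable (fun x : ι → ℝ => x i ^ 2) μ
  subG : ∀ B : Finset ι,
    ∫ x, exp (∑ i ∈ B, min (x i ^ 2) (S ^ 2) / 2) ∂μ ≤ 4 ^ B.card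

/-- Coordinate shift. -/
def sh (i : ι) (t : ℝ) (x : ι → ℝ) : ι → ℝ := x + Pi.single i t

/-- Smooth convex unconditional potentials with bounded derivatives. -/
structure Smooth (V : (ι → ℝ) → ℝ) (L : ℝ) : Prop where
  c1 : ContDiff ℝ 1 V
  convex : ConvexOn ℝ univ V
  unc : Unc V
  nonneg : 0 ≤ L
  lip : ∀ x i t, |V (sh i t x) - V x| ≤ L * |t|
  lip' : ∀ x i j t, |pd V j (sh i t x) - pd V j x| ≤ L * |t|
  curv : ∀ (x v : ι → ℝ) (t : ℝ), 0 ≤ t →
    -(L * t ^ 2 * ∑ i, v i ^ 2) ≤ ∑ i, ∑ j, v i * v j * (pd V j (sh i t x) - pd V j x)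

/-- The approximating class on which the main argument is run. -/
structure Nice (V : (ι → ℝ) → ℝ) (S L : ℝ) : Prop where
  smooth : Smooth V L
  base : Base (dens V) S
  tail : ∑ i, ∫ x, (if S < |x i| then x i ^ 2 else 0) ∂(dens V) ≤ 1 / 100

/-- Unconditional log-concave probability densities with joint subgaussian coordinates. -/
structure LC (ρ : (ι → ℝ) → ℝ) : Prop where
  meas : Measurable ρ
  nonneg : ∀ x, 0 ≤ ρ x
  int : Integrable ρ
  one : ∫ x, ρ x = 1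
  convex : Convex ℝ {x | 0 < ρ x}
  concave : ConcaveOn ℝ {x | 0 < ρ x} (fun x => log (ρ x))
  unc : Unc ρ
  subG : ∀ B : Finset ι,
    ∫⁻ x, ENNReal.ofReal (exp (∑ i ∈ B, x i ^ 2 / 2) * ρ x) ≤ 3 ^ B.card

/-- The defective inequality with the confining penalty. -/
def KI (μ : Measure (ι → ℝ)) (S K : ℝ) : Prop :=
  ∀ φ : (ι → ℝ) → ℝ, C1c φ →
    Ent μ (fun x => φ x ^ 2) ≤ K * En μ φ + ∫ x, U S x * φ x ^ 2 ∂μ + ∫ x, φ x ^ 2 ∂μ

/-- One-coordinate transport gain. -/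
noncomputable def gain (q u : ℝ) : ℝ := 2 * q * (1 - u) - (u - 1 - log u)

/-- Coordinate derivative of `log (f ^ 2 + δ)`. -/
noncomputable def lp (f : (ι → ℝ) → ℝ) (δ : ℝ) (i : ι) (x : ι → ℝ) : ℝ :=
  2 * f x * pd f i x / (f x ^ 2 + δ)

/-- Finite difference. -/
def dif (f : (ι → ℝ) → ℝ) (i : ι) (s : ℝ) (x : ι → ℝ) : ℝ := f (sh i s x) - f x

/-- Minus the adjoint of the finite difference. -/
noncomputable def adj (V φ : (ι → ℝ) → ℝ) (i : ι) (s : ℝ) (x : ι → ℝ) : ℝ :=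
  φ x - φ (sh i (-s) x) * exp (V x - V (sh i (-s) x))

/-- The bilinear form attached to a potential `χ`. -/
noncomputable def Bf (μ : Measure (ι → ℝ)) (S K : ℝ) (χ u v : (ι → ℝ) → ℝ) : ℝ :=
  K * ∑ j, ∫ x, pd u j x * pd v j x ∂μ + ∫ x, (U S x + 1 - χ x) * (u x * v x) ∂μ

/-- The normalized logarithmic potential of `f`. -/
noncomputable def pot (f : (ι → ℝ) → ℝ) (δ : ℝ) (x : ι → ℝ) : ℝ := log ((f x ^ 2 + δ) / (1 + δ))

/-- The curvature term of the discrete Bochner identity. -/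
noncomputable def Curv (V f : (ι → ℝ) → ℝ) (i : ι) (s : ℝ) : ℝ :=
  ∑ j, ∫ x, dif f i s x * pd f j (sh i s x) * (pd V j (sh i s x) - pd V j x) ∂(dens V)

/-- The penalty term of the discrete Bochner identity. -/
noncomputable def Uterm (V : (ι → ℝ) → ℝ) (S : ℝ) (f : (ι → ℝ) → ℝ) (i : ι) (s : ℝ) : ℝ :=
  ∫ x, (U S (sh i s x) - U S x) * (f (sh i s x) * dif f i s x) ∂(dens V)

/-- The reference weight of the discrete Bochner identity. -/
noncomputable def Rw (f : (ι → ℝ) → ℝ) (δ : ℝ) (i : ι) (s : ℝ) (x : ι → ℝ) : ℝ :=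
  max (f x ^ 2) (f (sh i s x) ^ 2) + δ

noncomputable def C2 : ℝ := exp 8 + 1
noncomputable def Cs : ℝ := 1024 * C2
noncomputable def K1 : ℝ := 3000 * C2
noncomputable def K0 : ℝ := 200000000 * C2

/-- What the near-extremal function provides, with error `η`. -/
structure Reg (μ : Measure (ι → ℝ)) (S K η : ℝ) (f : (ι → ℝ) → ℝ) (δ : ℝ)
    (d R : ι → (ι → ℝ) → ℝ) : Prop where
  c1c : C1c f
  δ_pos : 0 < δ
  δ_le : δ ≤ η
  norm : ∫ x, f x ^ 2 ∂μ = 1
  big : (K - 1) * En μ f + ∫ x, U S x * f x ^ 2 ∂μ + 1 ≤ Ent μ (fun x => f x ^ 2)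
  d_cont : ∀ i, Continuous (d i)
  d_supp : ∀ i, HasCompactSupport (d i)
  R_cont : ∀ i, Continuous (R i)
  R_ge : ∀ i x, δ ≤ R i x
  R_bdd : ∀ i, ∃ C, ∀ x, R i x ≤ C
  R_int : ∀ i, ∫ x, R i x ∂μ ≤ 4
  d_sq : ∑ i, ∫ x, d i x ^ 2 ∂μ ≤ 2 * En μ f
  ent : ∑ i, (Ent μ (fun x => d i x ^ 2) - ∫ x, d i x ^ 2 * log (R i x) ∂μ) ≤
    4 * En μ f + 2 * √(2 * En μ f * ∫ x, U S x * f x ^ 2 ∂μ) + η
  close : ∑ i, ∫ x, (pd f i x - d i x) ^ 2 ∂μ ≤ η
  bad : ∑ i, ∫ x, (if 4 * (f x ^ 2 + δ) < R i x then d i x ^ 2 else 0) ∂μ ≤ η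

end Vale.Agent.P245
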